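import Vale.Agent.P224.FV.Inst
import Vale.Agent.P224.FV.Green

/-!
Volume and multiplicity, without a normal field.
-/

namespace Vale.Agent.P224.TwoSide

open MeasureTheory Set Real Filter Vale.Agent.P224.FV Module
open scoped RealInnerProductSpace Topology ContDiff Manifold

set_option linter.unusedSectionVars false

section

variable {V W M : Type*} [NormedAddCommGroup V] [InnerProductSpace ℝ V] [FiniteDimensional ℝ V]
  [NormedAddCommGroup W] [InnerProductSpace ℝ W] [FiniteDimensional ℝ W]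
  [TopologicalSpace M] [ChartedSpace V M]

/-- Bessel inequality for the tangential part -/
lemma bessel [IsManifold 𝓘(ℝ, V) ∞ M] {F : M → W} (hF : SphImm V F) {y : W} (hy : ‖y‖ = 1)
    (p : M) : ⟪dl V F y F p, y⟫ ≤ 1 - ⟪F p, y⟫ ^ 2 := by
  have hI := immV_rep hF p
  have hpT : chartAt V p p ∈ (chartAt V p).target :=
    (chartAt V p).map_source (mem_chart_source _ p)
  have hFp : rep (V := V) F p (chartAt V p p) = F p := by
    unfold rep; rw [(chartAt V p).left_inv (mem_chart_source _ p)]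
  have ht : dl V F y F p = lT (rep (V := V) F p) y (chartAt V p p) := fderiv_vW _ _ _
  have h1 : ⟪dl V F y F p, F p⟫ = 0 := by
    have := inner_rep_F_fderiv hI hpT (vW (rep (V := V) F p) y (chartAt V p p))
    rwa [hFp] at this
  have h2 : ⟪dl V F y F p, y - dl V F y F p⟫ = 0 := by
    have := inner_fderiv_sub_lT (hI.inj _ hpT) y (vW (rep (V := V) F p) y (chartAt V p p))
    rwa [← ht] at this
  set t := dl V F y F p with htd
  have h3 : ⟪t, y⟫ = ‖t‖ ^ 2 := by
    rw [inner_sub_right, real_inner_self_eq_norm_sq] at h2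
    linarith
  have h4 : 0 ≤ ‖y - t - ⟪F p, y⟫ • F p‖ ^ 2 := sq_nonneg _
  rw [← real_inner_self_eq_norm_sq] at h4
  simp only [inner_sub_left, inner_sub_right, real_inner_smul_left, real_inner_smul_right,
    real_inner_self_eq_norm_sq, hy, h1, real_inner_comm t y, real_inner_comm t (F p),
    real_inner_comm (F p) y, h3] at h4
  rw [norm_smul, hF.unit, mul_one, Real.norm_eq_abs, sq_abs] at h4
  rw [h3]
  linarith

variable [MeasurableSpace V] [BorelSpace V] [MeasurableSpace M] [BorelSpace M]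

/-- the conformal volume with respect to an arbitrary unit vector -/
noncomputable def VV (μ : Measure M) (m : ℕ) (F : M → W) (y : W) (φ : ℝ) : ℝ :=
  ∫ x, cf φ ⟪F x, y⟫ ^ m ∂μ

lemma abs_Fy_le {F : M → W} (hF : SphImm V F) {y : W} (hy : ‖y‖ = 1) (x : M) :
    |⟪F x, y⟫| ≤ 1 := by
  have := abs_real_inner_le_norm (F x) y
  rwa [hF.unit, hy, mul_one] at this

lemma cont_DDy {F : M → W} (hF : SphImm V F) {y : W} (hy : ‖y‖ = 1) (k : ℕ) {φ : ℝ}
    (hφ : φ ∈ Ioo (-(π / 2)) (π / 2)) : Continuous (fun x => DD k φ ⟪F x, y⟫) := by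
  unfold DD
  have hcF : Continuous F := hF.smooth.continuous
  refine Continuous.inv₀ ?_ fun x => pow_ne_zero k (den_pos hφ (abs_Fy_le hF hy x)).ne'
  exact (continuous_const.sub ((hcF.inner continuous_const).mul continuous_const)).pow k

lemma deriv_nonpos [IsManifold 𝓘(ℝ, V) ∞ M] [CompactSpace M] [T2Space M]
    (hm : 1 ≤ Module.finrank ℝ V)
    (hW : Module.finrank ℝ W = Module.finrank ℝ V + 2) {F : M → W}
    (hF : SphImm V F) (hmin : ∀ x n, IsUnitNormal V F x n → meanCurv V F x n = 0)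
    {y : W} (hy : ‖y‖ = 1) {φ : ℝ} (hφ : φ ∈ Ico 0 (π / 2)) :
    ∫ x, (⟪F x, y⟫ - sin φ) / (1 - ⟪F x, y⟫ * sin φ) ^ (finrank ℝ V + 1) ∂(volM V F) ≤ 0 := by
  have hpi := pi_pos
  have hφ' : φ ∈ Ioo (-(π / 2)) (π / 2) := ⟨by linarith [hφ.1], hφ.2⟩
  have hV : VolChart V F := volChart_of_sphImm hF
  have hfin : IsFiniteMeasure (volM V F) := isFiniteMeasure_volM hF
  have hcF : Continuous F := hF.smooth.continuous
  set m := finrank ℝ V with hmdef
  have hm0 : (0 : ℝ) < m := by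
    have : (1 : ℝ) ≤ m := by exact_mod_cast hm
    positivity
  have hdp : ∀ x, 0 < 1 - ⟪F x, y⟫ * sin φ := fun x => den_pos hφ' (abs_Fy_le hF hy x)
  have hd : ∀ x, 1 - ⟪F x, y⟫ * sin φ ≠ 0 := fun x => (hdp x).ne'
  have hs := smooth_comp (w := DD m φ) (smooth_inner hF.smooth y)
    (fun x => contDiffAt_DD (hd x))
  have key := first_variation hW hF hmin hV y hs
  have e1 : ∀ p, dl V F y (fun q => DD m φ ⟪F q, y⟫) p
      = m * sin φ * DD (m + 1) φ ⟪F p, y⟫ * ⟪dl V F y F p, y⟫ := by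
    intro p
    rw [dl_comp y (smooth_inner hF.smooth y) p (hasDerivAt_DD (hd p)), dl_inner y hF.smooth]
  simp only [e1] at key
  have cs : Continuous (fun x => ⟪F x, y⟫) := hcF.inner continuous_const
  have cT : Continuous (fun x => ⟪dl V F y F x, y⟫) :=
    (continuous_dl hF y hF.smooth).inner continuous_const
  have cD : Continuous (fun x => DD (m + 1) φ ⟪F x, y⟫) := cont_DDy hF hy (m + 1) hφ'
  have cDm : Continuous (fun x => DD m φ ⟪F x, y⟫) := cont_DDy hF hy m hφ'
  have key2 : ∫ x, ⟪F x, y⟫ * DD m φ ⟪F x, y⟫ ∂(volM V F)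
      = sin φ * ∫ x, DD (m + 1) φ ⟪F x, y⟫ * ⟪dl V F y F x, y⟫ ∂(volM V F) := by
    have e2 : ∫ p, (m : ℝ) * sin φ * DD (m + 1) φ ⟪F p, y⟫ * ⟪dl V F y F p, y⟫ ∂(volM V F)
        = m * (sin φ * ∫ x, DD (m + 1) φ ⟪F x, y⟫ * ⟪dl V F y F x, y⟫ ∂(volM V F)) := by
      rw [← integral_const_mul, ← integral_const_mul]
      refine integral_congr_ae ?_
      filter_upwards with x
      ring
    rw [e2] at key
    have := mul_left_cancel₀ hm0.ne' key
    rw [this]
    refine integral_congr_ae ?_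
    filter_upwards with x
    rw [real_inner_comm]
  have i1 : Integrable (fun x => ⟪F x, y⟫ * DD m φ ⟪F x, y⟫) (volM V F) :=
    integrable_of_cont _ (cs.mul cDm)
  have i2 : Integrable (fun x => DD (m + 1) φ ⟪F x, y⟫ * (1 - ⟪F x, y⟫ ^ 2)) (volM V F) :=
    integrable_of_cont _ (cD.mul (continuous_const.sub (cs.pow 2)))
  have i3 : Integrable (fun x => DD (m + 1) φ ⟪F x, y⟫ * ⟪dl V F y F x, y⟫) (volM V F) :=
    integrable_of_cont _ (cD.mul cT)
  have e3 : ∫ x, (⟪F x, y⟫ - sin φ) / (1 - ⟪F x, y⟫ * sin φ) ^ (m + 1) ∂(volM V F)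
      = ∫ x, ⟪F x, y⟫ * DD m φ ⟪F x, y⟫ ∂(volM V F)
        - sin φ * ∫ x, DD (m + 1) φ ⟪F x, y⟫ * (1 - ⟪F x, y⟫ ^ 2) ∂(volM V F) := by
    rw [← integral_const_mul, ← integral_sub i1 (i2.const_mul _)]
    refine integral_congr_ae ?_
    filter_upwards with x
    rw [DD_succ (k := m) (hd x)]
    unfold DD
    ring
  rw [e3, key2, ← mul_sub, ← integral_sub i3 i2]
  have hsin : 0 ≤ sin φ := sin_nonneg_of_nonneg_of_le_pi hφ.1 (by linarith [hφ.2])
  apply mul_nonpos_of_nonneg_of_nonpos hsin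
  apply integral_nonpos
  intro x
  simp only [Pi.zero_apply]
  rw [← mul_sub]
  apply mul_nonpos_of_nonneg_of_nonpos (DD_pos (hdp x)).le
  have := bessel hF hy x
  linarith

/-- the volume is at least the number of preimages of a point times the volume of the sphere -/
theorem card_le [IsManifold 𝓘(ℝ, V) ∞ M] [CompactSpace M] [T2Space M]
    (hm : 1 ≤ Module.finrank ℝ V)
    (hW : Module.finrank ℝ W = Module.finrank ℝ V + 2) {F : M → W}
    (hF : SphImm V F) (hmin : ∀ x n, IsUnitNormal V F x n → meanCurv V F x n = 0)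
    (q : Finset M) (y : W) (hq : ∀ p ∈ q, F p = y) (hy : ‖y‖ = 1) :
    (q.card : ℝ) * sphereVol (finrank ℝ V) ≤ (volM V F).real univ := by
  borelize W
  have hfin : IsFiniteMeasure (volM V F) := isFiniteMeasure_volM hF
  have hpi := pi_pos
  set m := finrank ℝ V with hmdef
  have hcF : Continuous F := hF.smooth.continuous
  have hsm : Measurable (fun x => ⟪F x, y⟫) := (hcF.inner continuous_const).measurable
  have hder : ∀ φ ∈ Ioo (-(π / 2)) (π / 2), HasDerivAt (VV (volM V F) m F y)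
      (m * cos φ ^ (m - 1) * ∫ x, (⟪F x, y⟫ - sin φ) / (1 - ⟪F x, y⟫ * sin φ) ^ (m + 1)
        ∂(volM V F)) φ := by
    intro φ hφ
    have h1 := hasDerivAt_integral_cf (volM V F) m (g := fun _ => 1) hsm measurable_const
      (fun x => abs_Fy_le hF hy x) (by simp) hφ
    simp only [one_mul] at h1
    exact h1
  have hanti : AntitoneOn (VV (volM V F) m F y) (Ico 0 (π / 2)) := by
    have hsub : ∀ ψ ∈ Ico 0 (π / 2), ψ ∈ Ioo (-(π / 2)) (π / 2) := fun ψ hψ =>
      ⟨by linarith [hψ.1], hψ.2⟩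
    refine antitoneOn_of_deriv_nonpos (convex_Ico 0 (π / 2)) ?_ ?_ ?_
    · exact fun ψ hψ => (hder ψ (hsub ψ hψ)).continuousAt.continuousWithinAt
    · intro ψ hψ
      rw [interior_Ico] at hψ
      exact (hder ψ (hsub ψ ⟨hψ.1.le, hψ.2⟩)).differentiableAt.differentiableWithinAt
    · intro ψ hψ
      rw [interior_Ico] at hψ
      have hψ' : ψ ∈ Ico 0 (π / 2) := ⟨hψ.1.le, hψ.2⟩
      rw [(hder ψ (hsub ψ hψ')).deriv]
      have h2 : 0 ≤ cos ψ := cos_nonneg_of_neg_pi_div_two_le_of_le (by linarith [hψ.1]) hψ.2.le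
      exact mul_nonpos_of_nonneg_of_nonpos (by positivity) (deriv_nonpos hm hW hF hmin hy hψ')
  have hz : VV (volM V F) m F y 0 = (volM V F).real univ := by
    unfold VV cf
    simp
  rw [← hz]
  refine le_of_forall_pos_le_add fun ε hε => ?_
  have h1 : ∀ᶠ ψ in 𝓝[<] (π / 2), ψ ∈ Ioo 0 (π / 2) := Ioo_mem_nhdsLT (by positivity)
  have h0 := limit_card (by omega) hW hF q y hq hy hε
  obtain ⟨ψ, hψ1, hψ2⟩ := (h0.and h1).exists
  have h2 := hanti (⟨le_rfl, by positivity⟩ : (0 : ℝ) ∈ Ico 0 (π / 2))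
    (⟨hψ2.1.le, hψ2.2⟩ : ψ ∈ Ico 0 (π / 2)) hψ2.1.le
  have h3 : VV (volM V F) m F y ψ = ∫ x, cf ψ ⟪F x, y⟫ ^ m ∂(volM V F) := rfl
  linarith

/-- a minimal immersion which is not injective has volume at least twice that of the sphere -/
theorem two_le [IsManifold 𝓘(ℝ, V) ∞ M] [CompactSpace M] [T2Space M]
    (hm : 1 ≤ Module.finrank ℝ V)
    (hW : Module.finrank ℝ W = Module.finrank ℝ V + 2) {F : M → W}
    (hF : SphImm V F) (hmin : ∀ x n, IsUnitNormal V F x n → meanCurv V F x n = 0)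
    (hinj : ¬ Function.Injective F) :
    2 * sphereVol (finrank ℝ V) ≤ (volM V F).real univ := by
  classical
  simp only [Function.Injective, not_forall] at hinj
  obtain ⟨z', z, hz, hne⟩ := hinj
  have h := card_le hm hW hF hmin {z', z} (F z) (by simp [hz]) (hF.unit z)
  rw [Finset.card_pair hne] at h
  exact_mod_cast h

end

end Vale.Agent.P224.TwoSide
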