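import Vale.Agent.P224.TwoSide.Cone
import Vale.Agent.P224.FV.Geom

/-!
Every closed embedded hypersurface of the sphere is two-sided.
-/

namespace Vale.Agent.P224.TwoSide

open Set Filter Metric Module
open scoped Topology RealInnerProductSpace ContDiff Manifold

variable {V W M : Type*} [NormedAddCommGroup V] [InnerProductSpace ℝ V] [FiniteDimensional ℝ V]
  [NormedAddCommGroup W] [InnerProductSpace ℝ W] [FiniteDimensional ℝ W]
  [TopologicalSpace M] [ChartedSpace V M] {F : M → W}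

lemma exists_goodAt [IsManifold 𝓘(ℝ, V) ∞ M] [CompactSpace M]
    (hW : finrank ℝ W = finrank ℝ V + 2) (hF : SphImm V F) (hinj : Function.Injective F)
    {y : W} (hy : y ≠ 0) : ∃ g, GoodAt (cone F) g y := by
  by_cases h : y ∈ cone F
  · exact goodAt_on hW hF hinj h
  · exact ⟨_, goodAt_off hF.smooth.continuous hF.unit hy h⟩

/-- there is a pair of antipodal points outside the cone -/
lemma exists_base [IsManifold 𝓘(ℝ, V) ∞ M] [CompactSpace M]
    (hW : finrank ℝ W = finrank ℝ V + 2) (hF : SphImm V F) (hinj : Function.Injective F) :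
    ∃ p : W, ‖p‖ = 1 ∧ p ∉ cone F ∧ -p ∉ cone F := by
  have hdense : ∀ y : W, y ≠ 0 → ∃ᶠ z in 𝓝 y, z ∉ cone F := by
    intro y hy
    obtain ⟨g, hg⟩ := exists_goodAt hW hF hinj hy
    exact (hg.frequently.and_eventually hg.zero).mono fun z hz h => hz.1 (hz.2.mpr h)
  have hopen : ∀ y : W, y ≠ 0 → y ∉ cone F → ∀ᶠ z in 𝓝 y, z ∉ cone F := by
    intro y hy hyc
    have hg := goodAt_off hF.smooth.continuous hF.unit hy hyc
    filter_upwards [hg.zero] with z hz h
    have := hz.mpr h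
    norm_num at this
  have hnt : Nontrivial W := by
    apply Module.nontrivial_of_finrank_pos (R := ℝ)
    omega
  obtain ⟨y₀, hy₀⟩ := exists_ne (0 : W)
  have hne : ∀ y : W, y ≠ 0 → ∀ᶠ z in 𝓝 y, z ≠ 0 := fun y hy => continuousAt_id.eventually_ne hy
  obtain ⟨y, hyc, hy0⟩ := ((hdense y₀ hy₀).and_eventually (hne y₀ hy₀)).exists
  -- move near -y
  have h1 : ∀ᶠ z in 𝓝 (-y), -z ∉ cone F := by
    have : ContinuousAt (fun z : W => -z) (-y) := continuousAt_neg
    refine this.eventually (p := fun z => z ∉ cone F) ?_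
    change ∀ᶠ z in 𝓝 (- (- y)), z ∉ cone F
    rw [neg_neg]
    exact hopen y hy0 hyc
  have hny : -y ≠ 0 := neg_ne_zero.mpr hy0
  obtain ⟨z, hz1, hz2, hz3⟩ := ((hdense (-y) hny).and_eventually (h1.and (hne (-y) hny))).exists
  have hz0 : 0 < ‖z‖ := norm_pos_iff.mpr hz3
  have hscale : ∀ w : W, w ∉ cone F → ∀ c : ℝ, 0 < c → c • w ∉ cone F := by
    rintro w hw c hc ⟨r, hr, x, hx⟩
    apply hw
    refine ⟨c⁻¹ * r, by positivity, x, ?_⟩
    rw [mul_smul, ← hx, smul_smul, inv_mul_cancel₀ hc.ne', one_smul]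
  refine ⟨‖z‖⁻¹ • z, ?_, hscale z hz1 _ (by positivity), ?_⟩
  · rw [norm_smul, norm_inv, norm_norm, inv_mul_cancel₀ hz0.ne']
  · rw [← smul_neg]
    exact hscale _ hz2 _ (by positivity)

omit [FiniteDimensional ℝ W] in
lemma eq_neg_of_inner {p z : W} (hp : ‖p‖ = 1) (h : ⟪z, p⟫ = - ‖z‖) : z = - (‖z‖ • p) := by
  have h1 : ‖z + ‖z‖ • p‖ ^ 2 = 0 := by
    rw [← real_inner_self_eq_norm_sq, inner_add_left, inner_add_right, inner_add_right,
      real_inner_smul_left, real_inner_smul_right, real_inner_smul_right, real_inner_smul_left,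
      real_inner_self_eq_norm_sq, real_inner_self_eq_norm_sq, hp, real_inner_comm z p, h]
    ring
  have h2 : z + ‖z‖ • p = 0 := by
    rw [← norm_eq_zero]; exact pow_eq_zero_iff (two_ne_zero) |>.mp h1
  exact eq_neg_of_add_eq_zero_left h2

/-- a colouring of a star shaped domain containing the hypersurface -/
lemma exists_colouring [IsManifold 𝓘(ℝ, V) ∞ M] [CompactSpace M]
    (hW : finrank ℝ W = finrank ℝ V + 2) (hF : SphImm V F) (hinj : Function.Injective F) :
    ∃ c : W → ℝ, IsCol (cone F) (range F) c := by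
  obtain ⟨p, hp, hpc, hnpc⟩ := exists_base hW hF hinj
  set D : Set W := {y | ⟪y, p⟫ ≠ - ‖y‖} with hD
  have hDo : IsOpen D := by
    have h1 : Continuous fun y : W => ⟪y, p⟫ := continuous_id.inner continuous_const
    have h2 : Continuous fun y : W => - ‖y‖ := continuous_norm.neg
    exact isOpen_ne_fun h1 h2
  have hD0 : ∀ y ∈ D, y ≠ 0 := by
    intro y hy h0
    apply hy
    rw [h0]; simp
  have hstar : ∀ y ∈ D, segment ℝ p y ⊆ D := by
    intro y hy z hz hzD
    obtain ⟨a, b, ha, hb, hab, rfl⟩ := hz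
    have h1 := eq_neg_of_inner hp hzD
    rcases hb.eq_or_lt with h0 | h0
    · rw [← h0, add_zero] at hab
      rw [← h0, hab] at hzD
      simp only [one_smul, zero_smul, add_zero, hp] at hzD
      rw [real_inner_self_eq_norm_sq, hp] at hzD
      norm_num at hzD
    · set ρ := ‖a • p + b • y‖ with hρ
      have h2 : b • y = - ((ρ + a) • p) := by
        have : b • y = (a • p + b • y) - a • p := by abel
        rw [this, h1, add_smul]
        abel
      have h3 : y = - (((ρ + a) / b) • p) := by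
        have := congrArg (fun w => b⁻¹ • w) h2
        simp only [smul_smul, inv_mul_cancel₀ h0.ne', one_smul, smul_neg] at this
        rw [this]
        congr 2
        field_simp
      apply hy
      have hρ0 : 0 ≤ ρ := norm_nonneg _
      have h4 : 0 ≤ (ρ + a) / b := by positivity
      rw [h3, inner_neg_left, real_inner_smul_left, real_inner_self_eq_norm_sq, hp, norm_neg,
        norm_smul, hp, Real.norm_of_nonneg h4]
      ring
  obtain ⟨c, hc⟩ := exists_global (C := cone F) (D := D) (p := p) hDo hpc hstar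
    (fun z hz => exists_goodAt hW hF hinj (hD0 z hz))
  refine ⟨c, hc.mono ?_⟩
  rintro _ ⟨x, rfl⟩ h
  have h1 := eq_neg_of_inner hp h
  apply hnpc
  rw [hF.unit, one_smul] at h1
  exact ⟨1, one_pos, x, by rw [one_smul, h1]⟩

/-- the differential of a defining function does not vanish on the normal -/
lemma fderiv_ne_zero [IsManifold 𝓘(ℝ, V) ∞ M]
    (hW : finrank ℝ W = finrank ℝ V + 2) (hF : SphImm V F) {g : W → ℝ} {x : M} {n : W}
    (hg : GoodAt (cone F) g (F x)) (hn : IsUnitNormal V F x n) : fderiv ℝ g (F x) n ≠ 0 := by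
  intro h0
  have hI := immV_rep hF x
  have hxs := mem_chart_source V x
  have hxT : chartAt V x x ∈ (chartAt V x).target := (chartAt V x).map_source hxs
  set f : V → W := rep F x with hf
  have hfx : f (chartAt V x x) = F x := by
    rw [hf]; unfold rep; rw [(chartAt V x).left_inv hxs]
  have hfd : HasFDerivAt f (fderiv ℝ f (chartAt V x x)) (chartAt V x x) :=
    ((hI.smooth.contDiffAt (hI.isOpen.mem_nhds hxT)).differentiableAt (by norm_num)).hasFDerivAt
  have hgd : HasFDerivAt g (fderiv ℝ g (F x)) (F x) :=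
    (hg.smooth.differentiableAt (by norm_num)).hasFDerivAt
  have hmem : F x ∈ cone F := ⟨1, one_pos, x, (one_smul _ _).symm⟩
  have hg0 : g (F x) = 0 := hg.zero.self_of_nhds.mpr hmem
  apply hg.reg hg0
  -- tangential directions
  have h1 : ∀ v, fderiv ℝ g (F x) (fderiv ℝ f (chartAt V x x) v) = 0 := by
    intro v
    have e1 : HasFDerivAt (g ∘ f) ((fderiv ℝ g (F x)).comp (fderiv ℝ f (chartAt V x x)))
        (chartAt V x x) := by
      rw [← hfx] at hgd ⊢
      exact hgd.comp _ hfd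
    have e2 : g ∘ f =ᶠ[𝓝 (chartAt V x x)] fun _ => 0 := by
      have := hfd.continuousAt.eventually (by rw [hfx]; exact hg.zero)
      filter_upwards [this] with u hu
      exact hu.mpr ⟨1, one_pos, _, (one_smul _ _).symm⟩
    have e3 := (e1.congr_of_eventuallyEq e2.symm).unique (hasFDerivAt_const (0 : ℝ) _)
    have := congrArg (fun L => L v) e3
    simpa using this
  have h2 : fderiv ℝ g (F x) (F x) = 0 := by
    have hcur : HasDerivAt (fun r : ℝ => r • F x) (F x) 1 := by
      simpa using (hasDerivAt_id (1 : ℝ)).smul_const (F x)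
    have hgd' : HasFDerivAt g (fderiv ℝ g (F x)) ((1 : ℝ) • F x) := by
      rw [one_smul]; exact hgd
    have e1 := hgd'.comp_hasDerivAt (1 : ℝ) hcur
    have e2 : g ∘ (fun r : ℝ => r • F x) =ᶠ[𝓝 1] fun _ => 0 := by
      have hz : ∀ᶠ z in 𝓝 ((fun r : ℝ => r • F x) 1), (g z = 0 ↔ z ∈ cone F) := by
        simp only [one_smul]; exact hg.zero
      have := hcur.continuousAt.eventually hz
      filter_upwards [this, lt_mem_nhds (zero_lt_one (α := ℝ))] with r hr hr0
      exact hr.mpr ⟨r, hr0, x, rfl⟩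
    exact (e1.congr_of_eventuallyEq e2.symm).unique (hasDerivAt_const (1 : ℝ) (0 : ℝ))
  obtain ⟨hn1, hn2, hn3⟩ := hn
  have hLn : ∀ v, ⟪fderiv ℝ f (chartAt V x x) v, n⟫ = 0 := by
    intro v
    have hv : v = ∑ i, (stdOrthonormalBasis ℝ V).repr v i • stdOrthonormalBasis ℝ V i :=
      ((stdOrthonormalBasis ℝ V).sum_repr v).symm
    rw [hv, map_sum, sum_inner]
    refine Finset.sum_eq_zero fun i _ => ?_
    rw [map_smul, inner_smul_left]
    have : ⟪fderiv ℝ f (chartAt V x x) (stdOrthonormalBasis ℝ V i), n⟫ = 0 := hn3 i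
    rw [this, mul_zero]
  set z := (InnerProductSpace.toDual ℝ W).symm (fderiv ℝ g (F x)) with hz
  have hzi : ∀ w, ⟪w, z⟫ = fderiv ℝ g (F x) w := by
    intro w
    rw [real_inner_comm, hz, InnerProductSpace.toDual_symm_apply]
  have hz0 : z = 0 := by
    apply FV.eq_zero_of_orth hW (fderiv ℝ f (chartAt V x x)).toLinearMap (hI.inj _ hxT)
      (hF.unit x) hn1 hn2
    · intro v
      have := FV.inner_rep_F_fderiv hI hxT v
      rwa [hfx] at this
    · exact hLn
    · intro v
      rw [hzi]; exact h1 v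
    · rw [hzi]; exact h2
    · rw [hzi]; exact h0
  have h3 := congrArg (InnerProductSpace.toDual ℝ W) hz0
  rw [hz, LinearIsometryEquiv.apply_symm_apply, map_zero] at h3
  exact h3

/-- the side into which the normal points -/
lemma side {g c : W → ℝ} {x : M} {n : W}
    (hg : GoodAt (cone F) g (F x)) (hc : ∀ᶠ z in 𝓝 (F x), c z = Real.sign (g z))
    (h0 : 0 < fderiv ℝ g (F x) n) : ∀ᶠ s in 𝓝[>] (0 : ℝ), c (F x + s • n) = 1 := by
  obtain ⟨k, hk, δ, hδ, hgr⟩ := growth hg.smooth h0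
  have hmem : F x ∈ cone F := ⟨1, one_pos, x, (one_smul _ _).symm⟩
  have hg0 : g (F x) = 0 := hg.zero.self_of_nhds.mpr hmem
  have hcur : ContinuousAt (fun s : ℝ => F x + s • n) 0 := by fun_prop
  have e0 : F x + (0 : ℝ) • n = F x := by simp
  have h1 : ∀ᶠ s in 𝓝 (0 : ℝ), F x + s • n ∈ ball (F x) δ := by
    apply hcur.eventually_mem
    rw [e0]
    exact ball_mem_nhds _ hδ
  have h2 : ∀ᶠ s in 𝓝 (0 : ℝ), c (F x + s • n) = Real.sign (g (F x + s • n)) := by
    refine hcur.eventually (p := fun z => c z = Real.sign (g z)) ?_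
    change ∀ᶠ z in 𝓝 (F x + (0 : ℝ) • n), c z = Real.sign (g z)
    rw [e0]
    exact hc
  filter_upwards [nhdsWithin_le_nhds h1, nhdsWithin_le_nhds h2, self_mem_nhdsWithin]
    with s a b hs
  have hs0 : 0 < s := hs
  have h3 := hgr (F x) (mem_ball_self hδ) s hs0.le a
  rw [b, Real.sign_of_pos]
  rw [hg0] at h3
  have : 0 < k * s := mul_pos hk hs0
  linarith

lemma side_neg {g c : W → ℝ} {x : M} {n : W}
    (hg : GoodAt (cone F) g (F x)) (hc : ∀ᶠ z in 𝓝 (F x), c z = Real.sign (g z))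
    (h0 : fderiv ℝ g (F x) n < 0) : ∀ᶠ s in 𝓝[>] (0 : ℝ), c (F x + s • n) = -1 := by
  have h1 : ∀ᶠ z in 𝓝 (F x), (fun z => - c z) z = Real.sign ((fun z => - g z) z) := by
    filter_upwards [hc] with z hz
    rw [Real.sign_neg, hz]
  have h2 := side hg.neg h1 (n := n) (by
    rw [fderiv_fun_neg]
    simp only [_root_.neg_apply]
    linarith)
  filter_upwards [h2] with s hs
  linarith

/-- every closed embedded hypersurface of the sphere has a smooth unit normal field -/
theorem exists_normal [IsManifold 𝓘(ℝ, V) ∞ M] [CompactSpace M]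
    (hW : finrank ℝ W = finrank ℝ V + 2) (hF : SphImm V F) (hinj : Function.Injective F) :
    ∃ N : M → W, ContMDiff 𝓘(ℝ, V) 𝓘(ℝ, W) ∞ N ∧ ∀ x, IsUnitNormal V F x (N x) := by
  obtain ⟨c, hc⟩ := exists_colouring hW hF hinj
  have hneg : ∀ (x : M) (n : W), IsUnitNormal V F x n → IsUnitNormal V F x (-n) := by
    rintro x n ⟨h1, h2, h3⟩
    exact ⟨by rw [norm_neg]; exact h1, by rw [inner_neg_right, h2, neg_zero],
      fun i => by rw [inner_neg_right, h3, neg_zero]⟩
  -- dichotomy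
  have hdich : ∀ (x : M) (n : W), IsUnitNormal V F x n →
      (∀ᶠ s in 𝓝[>] (0 : ℝ), c (F x + s • n) = 1) ∨
      (∀ᶠ s in 𝓝[>] (0 : ℝ), c (F x + s • (-n)) = 1) := by
    intro x n hn
    obtain ⟨g, hg, hcg⟩ := hc (F x) ⟨x, rfl⟩
    rcases lt_or_gt_of_ne (fderiv_ne_zero hW hF hg hn) with h | h
    · right
      exact side hg hcg (by rw [map_neg]; linarith)
    · left
      exact side hg hcg h
  have hexcl : ∀ (x : M) (n : W), IsUnitNormal V F x n →
      (∀ᶠ s in 𝓝[>] (0 : ℝ), c (F x + s • n) = 1) →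
      ¬ (∀ᶠ s in 𝓝[>] (0 : ℝ), c (F x + s • (-n)) = 1) := by
    intro x n hn h1 h2
    obtain ⟨g, hg, hcg⟩ := hc (F x) ⟨x, rfl⟩
    rcases lt_or_gt_of_ne (fderiv_ne_zero hW hF hg hn) with h | h
    · obtain ⟨s, hs1, hs2⟩ := (h1.and (side_neg hg hcg h)).exists
      rw [hs1] at hs2; norm_num at hs2
    · obtain ⟨s, hs1, hs2⟩ := (h2.and (side_neg hg hcg (n := -n)
        (by rw [map_neg]; linarith))).exists
      rw [hs1] at hs2; norm_num at hs2
  have hex : ∀ x : M, ∃ n : W, IsUnitNormal V F x n ∧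
      ∀ᶠ s in 𝓝[>] (0 : ℝ), c (F x + s • n) = 1 := by
    intro x
    have hut : chartAt V x x ∈ (chartAt V x).target :=
      (chartAt V x).map_source (mem_chart_source _ x)
    have h1 := (pointwise_nu hW hF x hut).1
    rw [(chartAt V x).left_inv (mem_chart_source _ x)] at h1
    rcases hdich x _ h1 with h | h
    · exact ⟨_, h1, h⟩
    · exact ⟨_, hneg x _ h1, h⟩
  choose N hN hNc using hex
  refine ⟨N, ?_, hN⟩
  intro x₀
  set φ := chartAt V x₀ with hφ
  have hxs : x₀ ∈ φ.source := mem_chart_source _ x₀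
  have hxT : φ x₀ ∈ φ.target := φ.map_source hxs
  set ν : M → W := fun x => nuW hW (rep F x₀) (φ x) with hν
  have hνn : ∀ x ∈ φ.source, IsUnitNormal V F x (ν x) := by
    intro x hx
    have h1 := (pointwise_nu hW hF x₀ (φ.map_source hx)).1
    rwa [φ.left_inv hx] at h1
  have hνs : ContMDiffAt 𝓘(ℝ, V) 𝓘(ℝ, W) ∞ ν x₀ := by
    have hI := (immV_rep hF x₀).imm hW
    have hmem : iV V (φ x₀) ∈ (iV V).symm ⁻¹' φ.target := by
      rw [mem_preimage, (iV V).symm_apply_apply]; exact hxT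
    have h1 : ContDiffAt ℝ ∞ (nu (tr hW (rep F x₀))) (iV V (φ x₀)) :=
      hI.contDiffOn_nu.contDiffAt (hI.isOpen.mem_nhds hmem)
    have h2 : ContDiffAt ℝ ∞ (nuW hW (rep F x₀)) (φ x₀) := by
      unfold nuW
      exact (iW hW).symm.contDiff.contDiffAt.comp _
        (h1.comp (φ x₀) (iV V).contDiff.contDiffAt)
    have h3 : ContMDiffAt 𝓘(ℝ, V) 𝓘(ℝ, V) ∞ φ x₀ := by
      have := contMDiffAt_extChartAt (I := 𝓘(ℝ, V)) (x := x₀) (n := ∞)
      simpa using this
    exact h2.contMDiffAt.comp x₀ h3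
  -- local constancy of the sign
  obtain ⟨g, hg, hcg⟩ := hc (F x₀) ⟨x₀, rfl⟩
  have hFc : ContinuousAt F x₀ := hF.smooth.continuous.continuousAt
  have e1 : ∀ᶠ x in 𝓝 x₀, GoodAt (cone F) g (F x) := hFc.eventually hg.eventually
  have e2 : ∀ᶠ x in 𝓝 x₀, ∀ᶠ z in 𝓝 (F x), c z = Real.sign (g z) :=
    hFc.eventually hcg.eventually_nhds
  have hcont : ContinuousAt (fun x => fderiv ℝ g (F x) (ν x)) x₀ := by
    have h1 : ContinuousAt (fun x => fderiv ℝ g (F x)) x₀ :=
      ContinuousAt.comp (f := F) (g := fderiv ℝ g)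
        (hg.smooth.fderiv_right (m := 0) (by norm_num)).continuousAt hFc
    exact h1.clm_apply hνs.continuousAt
  have e3 : ∀ᶠ x in 𝓝 x₀, x ∈ φ.source := φ.open_source.mem_nhds hxs
  have huniq : ∀ x (n : W), IsUnitNormal V F x n →
      (∀ᶠ s in 𝓝[>] (0 : ℝ), c (F x + s • n) = 1) → N x = n := by
    intro x n hn hcn
    obtain ⟨ε₁, hε₁, h1⟩ := unitNormal_eq hW hF x n hn
    obtain ⟨ε₂, hε₂, h2⟩ := unitNormal_eq hW hF x (N x) (hN x)
    have hε : ∀ ε : ℝ, ε ^ 2 = 1 → ε = 1 ∨ ε = -1 := by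
      intro ε h
      have : (ε - 1) * (ε + 1) = 0 := by linarith [h]
      rcases mul_eq_zero.mp this with h | h
      · left; linarith
      · right; linarith
    have h3 : N x = n ∨ N x = - n := by
      rw [h1, h2]
      rcases hε _ hε₁ with a | a <;> rcases hε _ hε₂ with b | b <;> simp [a, b]
    rcases h3 with h3 | h3
    · exact h3
    · exfalso
      have := hNc x
      rw [h3] at this
      exact hexcl x n hn hcn this
  rcases lt_or_gt_of_ne (fderiv_ne_zero hW hF hg (hνn x₀ hxs)) with h | h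
  · have h4 : ∀ᶠ x in 𝓝 x₀, fderiv ℝ g (F x) (ν x) < 0 := hcont.eventually (gt_mem_nhds h)
    have h5 : N =ᶠ[𝓝 x₀] fun x => - ν x := by
      filter_upwards [e1, e2, e3, h4] with x a b c' d
      exact huniq x _ (hneg x _ (hνn x c')) (side a b (by rw [map_neg]; linarith))
    exact (hνs.neg).congr_of_eventuallyEq h5
  · have h4 : ∀ᶠ x in 𝓝 x₀, 0 < fderiv ℝ g (F x) (ν x) := hcont.eventually (lt_mem_nhds h)
    have h5 : N =ᶠ[𝓝 x₀] ν := by
      filter_upwards [e1, e2, e3, h4] with x a b c' d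
      exact huniq x _ (hνn x c') (side a b d)
    exact hνs.congr_of_eventuallyEq h5

end Vale.Agent.P224.TwoSide
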