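import Mathlib

/-!
Sign colourings of the complement of a closed hypersurface of a star shaped domain.
-/

namespace Vale.Agent.P224.TwoSide

open Set Filter Metric
open scoped Topology

variable {E : Type*} [NormedAddCommGroup E] [NormedSpace ℝ E]

/-- g is a local defining function of C near y -/
structure GoodAt (C : Set E) (g : E → ℝ) (y : E) : Prop where
  smooth : ContDiffAt ℝ 1 g y
  zero : ∀ᶠ z in 𝓝 y, (g z = 0 ↔ z ∈ C)
  reg : g y = 0 → fderiv ℝ g y ≠ 0

lemma GoodAt.neg {C : Set E} {g : E → ℝ} {y : E} (h : GoodAt C g y) :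
    GoodAt C (fun z => - g z) y where
  smooth := h.smooth.neg
  zero := by
    filter_upwards [h.zero] with z hz
    rw [neg_eq_zero]; exact hz
  reg := by
    intro h0 h1
    rw [neg_eq_zero] at h0
    rw [fderiv_fun_neg, neg_eq_zero] at h1
    exact h.reg h0 h1

lemma GoodAt.eventually {C : Set E} {g : E → ℝ} {y : E} (h : GoodAt C g y) :
    ∀ᶠ z in 𝓝 y, GoodAt C g z := by
  have h1 : ∀ᶠ z in 𝓝 y, ContDiffAt ℝ 1 g z := h.smooth.eventually (by simp)
  have h2 := h.zero.eventually_nhds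
  have h3 : ∀ᶠ z in 𝓝 y, g z = 0 → fderiv ℝ g z ≠ 0 := by
    by_cases h0 : g y = 0
    · have hc : ContinuousAt (fderiv ℝ g) y :=
        (h.smooth.fderiv_right (m := 0) (by norm_num)).continuousAt
      filter_upwards [hc.eventually_ne (h.reg h0)] with z hz _ using hz
    · filter_upwards [h.smooth.continuousAt.eventually_ne h0] with z hz hz0
      exact absurd hz0 hz
  filter_upwards [h1, h2, h3] with z a b c using ⟨a, b, c⟩

lemma GoodAt.frequently {C : Set E} {g : E → ℝ} {y : E} (h : GoodAt C g y) :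
    ∃ᶠ z in 𝓝 y, g z ≠ 0 := by
  intro h0
  simp only [not_not] at h0
  have h1 : g =ᶠ[𝓝 y] fun _ => (0 : ℝ) := h0
  apply h.reg h1.eq_of_nhds
  rw [h1.fderiv_eq]
  simp

/-- there is a direction in which both differentials do not vanish -/
lemma exists_dir {L1 L2 : E →L[ℝ] ℝ} (h1 : L1 ≠ 0) (h2 : L2 ≠ 0) : ∃ w, 0 < L1 w ∧ L2 w ≠ 0 := by
  obtain ⟨a, ha⟩ : ∃ a, L1 a ≠ 0 := by
    by_contra h
    push Not at h
    exact h1 (by ext1 x; simpa using h x)
  obtain ⟨b, hb⟩ : ∃ b, L2 b ≠ 0 := by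
    by_contra h
    push Not at h
    exact h2 (by ext1 x; simpa using h x)
  have h : ∃ w, L1 w ≠ 0 ∧ L2 w ≠ 0 := by
    by_cases h3 : L2 a = 0
    · by_cases h4 : L1 b = 0
      · refine ⟨a + b, ?_, ?_⟩
        · rw [map_add, h4, add_zero]; exact ha
        · rw [map_add, h3, zero_add]; exact hb
      · exact ⟨b, h4, hb⟩
    · exact ⟨a, ha, h3⟩
  obtain ⟨w, hw1, hw2⟩ := h
  rcases lt_or_gt_of_ne hw1 with h3 | h3
  · exact ⟨-w, by rw [map_neg]; linarith, by rw [map_neg]; simpa using hw2⟩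
  · exact ⟨w, h3, hw2⟩

/-- lower growth bound in a direction -/
lemma growth {g : E → ℝ} {y w : E} (hs : ContDiffAt ℝ 1 g y) (hw : 0 < fderiv ℝ g y w) :
    ∃ c > 0, ∃ δ > 0, ∀ z ∈ ball y δ, ∀ s : ℝ, 0 ≤ s → z + s • w ∈ ball y δ →
      g z + c * s ≤ g (z + s • w) := by
  have hc : ContinuousAt (fun z => fderiv ℝ g z w) y :=
    (hs.fderiv_right (m := 0) (by norm_num)).continuousAt.clm_apply continuousAt_const
  set c := fderiv ℝ g y w / 2 with hcdef
  have h1 : ∀ᶠ z in 𝓝 y, c < fderiv ℝ g z w := hc.eventually (lt_mem_nhds (by linarith))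
  have h2 : ∀ᶠ z in 𝓝 y, ContDiffAt ℝ 1 g z := hs.eventually (by simp)
  obtain ⟨δ, hδ, hball⟩ := Metric.eventually_nhds_iff_ball.mp (h1.and h2)
  refine ⟨c, by positivity, δ, hδ, ?_⟩
  intro z hz s hs0 hzs
  rcases hs0.eq_or_lt with h0 | h0
  · rw [← h0]; simp
  -- the function r ↦ g (z + r w) - c r is monotone on [0, s]
  have hseg : ∀ r ∈ Icc 0 s, z + r • w ∈ ball y δ := by
    intro r hr
    have hconv := (convex_ball y δ) hz hzs (a := 1 - r / s) (b := r / s)
      (by rw [sub_nonneg, div_le_one h0]; exact hr.2) (div_nonneg hr.1 h0.le) (by ring)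
    have e : (1 - r / s) • z + (r / s) • (z + s • w) = z + r • w := by
      rw [smul_add, smul_smul, div_mul_cancel₀ _ h0.ne', sub_smul, one_smul]
      abel
    rwa [e] at hconv
  have hder : ∀ r ∈ Icc 0 s, HasDerivAt (fun r : ℝ => g (z + r • w) - c * r)
      (fderiv ℝ g (z + r • w) w - c) r := by
    intro r hr
    have hd : DifferentiableAt ℝ g (z + r • w) :=
      (hball _ (hseg r hr)).2.differentiableAt (by norm_num)
    have h3 : HasDerivAt (fun r : ℝ => z + r • w) w r := by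
      simpa using ((hasDerivAt_id r).smul_const w).const_add z
    have h4 := hd.hasFDerivAt.comp_hasDerivAt r h3
    have h5 : HasDerivAt (fun r : ℝ => c * r) c r := by
      simpa using (hasDerivAt_id r).const_mul c
    exact h4.sub h5
  have hmono : MonotoneOn (fun r : ℝ => g (z + r • w) - c * r) (Icc 0 s) := by
    refine monotoneOn_of_deriv_nonneg (convex_Icc 0 s) ?_ ?_ ?_
    · exact fun r hr => (hder r hr).continuousAt.continuousWithinAt
    · intro r hr
      rw [interior_Icc] at hr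
      exact (hder r ⟨hr.1.le, hr.2.le⟩).differentiableAt.differentiableWithinAt
    · intro r hr
      rw [interior_Icc] at hr
      rw [(hder r ⟨hr.1.le, hr.2.le⟩).deriv]
      have := (hball _ (hseg r ⟨hr.1.le, hr.2.le⟩)).1
      linarith
  have := hmono ⟨le_rfl, hs0⟩ ⟨hs0, le_rfl⟩ hs0
  simp only [zero_smul, add_zero, mul_zero, sub_zero] at this
  linarith

/-- comparison of positive signs -/
lemma pos_of_pos {g₁ g₂ : E → ℝ} {C : Set E} {y w : E} (h1 : GoodAt C g₁ y) (h2 : GoodAt C g₂ y)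
    (h01 : g₁ y = 0) (hw1 : 0 < fderiv ℝ g₁ y w) (hw2 : 0 < fderiv ℝ g₂ y w) :
    ∀ᶠ z in 𝓝 y, (0 < g₁ z → 0 < g₂ z) ∧ (g₁ z < 0 → g₂ z < 0) := by
  obtain ⟨c₁, hc₁, δ₁, hδ₁, hg₁⟩ := growth h1.smooth hw1
  obtain ⟨c₂, hc₂, δ₂, hδ₂, hg₂⟩ := growth h2.smooth hw2
  obtain ⟨δ₃, hδ₃, hg₃⟩ := Metric.eventually_nhds_iff_ball.mp
    ((h1.zero.and h2.zero).and (h1.smooth.eventually (by simp)))
  set δ := min (min δ₁ δ₂) δ₃ with hδ
  have hδ0 : 0 < δ := by positivity
  have hw0 : w ≠ 0 := by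
    intro h; rw [h, map_zero] at hw1; exact lt_irrefl _ hw1
  have hwn : 0 < ‖w‖ := norm_pos_iff.mpr hw0
  set S := δ / 2 / ‖w‖ with hS
  have hS0 : 0 < S := by positivity
  have e1 : ∀ᶠ z in 𝓝 y, z ∈ ball y (δ / 2) := ball_mem_nhds y (by positivity)
  have e2 : ∀ᶠ z in 𝓝 y, |g₁ z| < c₁ * S := by
    have : ContinuousAt (fun z => |g₁ z|) y := h1.smooth.continuousAt.abs
    apply this.eventually (gt_mem_nhds _)
    change |g₁ y| < c₁ * S
    rw [h01, abs_zero]; positivity
  filter_upwards [e1, e2] with z hz1 hz2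
  have hmem : ∀ s : ℝ, |s| ≤ S → z + s • w ∈ ball y δ := by
    intro s hs
    rw [mem_ball, dist_eq_norm] at hz1 ⊢
    have h3 : ‖s • w‖ ≤ δ / 2 := by
      rw [norm_smul, Real.norm_eq_abs]
      calc |s| * ‖w‖ ≤ S * ‖w‖ := by gcongr
        _ = δ / 2 := by rw [hS]; field_simp
    calc ‖z + s • w - y‖ = ‖(z - y) + s • w‖ := by congr 1; abel
      _ ≤ ‖z - y‖ + ‖s • w‖ := norm_add_le _ _
      _ < δ := by linarith
  have hb1 : ∀ q ∈ ball y δ, q ∈ ball y δ₁ := fun q hq =>
    ball_subset_ball ((min_le_left _ _).trans (min_le_left _ _)) hq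
  have hb2 : ∀ q ∈ ball y δ, q ∈ ball y δ₂ := fun q hq =>
    ball_subset_ball ((min_le_left _ _).trans (min_le_right _ _)) hq
  have hb3 : ∀ q ∈ ball y δ, q ∈ ball y δ₃ := fun q hq =>
    ball_subset_ball (min_le_right _ _) hq
  have hz0 : z ∈ ball y δ := by
    have := hmem 0 (by simpa using hS0.le)
    simpa using this
  have hcont : ContinuousOn (fun s : ℝ => g₁ (z + s • w)) (Icc (-S) S) := by
    intro s hs
    have hq := hb3 _ (hmem s (abs_le.mpr hs))
    have h4 : ContinuousAt g₁ (z + s • w) := (hg₃ _ hq).2.continuousAt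
    have h5 : ContinuousAt (fun s : ℝ => z + s • w) s := by fun_prop
    exact (ContinuousAt.comp (f := fun s : ℝ => z + s • w) h4 h5).continuousWithinAt
  constructor
  · intro hpos
    -- go backwards
    have h3 : g₁ (z + (-S) • w) + c₁ * S ≤ g₁ z := by
      have h6 := hg₁ (z + (-S) • w) (hb1 _ (hmem _ (by rw [abs_neg, abs_of_pos hS0]))) S hS0.le
        (by
          have : z + (-S) • w + S • w = z := by rw [neg_smul]; abel
          rw [this]; exact hb1 _ hz0)
      have : z + (-S) • w + S • w = z := by rw [neg_smul]; abel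
      rwa [this] at h6
    have h4 : g₁ (z + (-S) • w) ≤ 0 := by
      have := (abs_lt.mp hz2).2
      linarith
    have hiv := intermediate_value_Icc (show -S ≤ 0 by linarith)
      (hcont.mono (Icc_subset_Icc le_rfl hS0.le))
    simp only [zero_smul, add_zero] at hiv
    obtain ⟨s, hs, hs0⟩ := hiv ⟨h4, hpos.le⟩
    simp only at hs0
    have hq := hmem s (abs_le.mpr ⟨hs.1, hs.2.trans hS0.le⟩)
    have hq3 := (hg₃ _ (hb3 _ hq)).1
    have h7 : g₂ (z + s • w) = 0 := hq3.2.mpr (hq3.1.mp hs0)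
    have hs1 : s ≠ 0 := by
      intro h; rw [h] at hs0; simp at hs0; linarith
    have h8 := hg₂ (z + s • w) (hb2 _ hq) (-s) (by linarith [hs.2]) (by
      have : z + s • w + (-s) • w = z := by rw [neg_smul]; abel
      rw [this]; exact hb2 _ hz0)
    have h9 : z + s • w + (-s) • w = z := by rw [neg_smul]; abel
    rw [h9, h7] at h8
    have : 0 < c₂ * (-s) := mul_pos hc₂ (by
      have := lt_of_le_of_ne hs.2 hs1
      linarith)
    linarith
  · intro hneg
    have h3 : g₁ z + c₁ * S ≤ g₁ (z + S • w) :=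
      hg₁ z (hb1 _ hz0) S hS0.le (hb1 _ (hmem _ (by rw [abs_of_pos hS0])))
    have h4 : 0 ≤ g₁ (z + S • w) := by
      have := (abs_lt.mp hz2).1
      linarith
    have hiv := intermediate_value_Icc (show (0 : ℝ) ≤ S by linarith)
      (hcont.mono (Icc_subset_Icc (by linarith) le_rfl))
    simp only [zero_smul, add_zero] at hiv
    obtain ⟨s, hs, hs0⟩ := hiv ⟨hneg.le, h4⟩
    simp only at hs0
    have hq := hmem s (abs_le.mpr ⟨by linarith [hs.1], hs.2⟩)
    have hq3 := (hg₃ _ (hb3 _ hq)).1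
    have h7 : g₂ (z + s • w) = 0 := hq3.2.mpr (hq3.1.mp hs0)
    have hs1 : s ≠ 0 := by
      intro h; rw [h] at hs0; simp at hs0; linarith
    have h8 := hg₂ z (hb2 _ hz0) s hs.1 (hb2 _ hq)
    rw [h7] at h8
    have : 0 < c₂ * s := mul_pos hc₂ (lt_of_le_of_ne hs.1 (Ne.symm hs1))
    linarith

/-- two local defining functions have the same signs up to a global sign -/
lemma sign_cases {g₁ g₂ : E → ℝ} {C : Set E} {y : E} (h1 : GoodAt C g₁ y) (h2 : GoodAt C g₂ y) :
    (∀ᶠ z in 𝓝 y, Real.sign (g₁ z) = Real.sign (g₂ z)) ∨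
    (∀ᶠ z in 𝓝 y, Real.sign (g₁ z) = - Real.sign (g₂ z)) := by
  have hz1 := h1.zero.self_of_nhds
  have hz2 := h2.zero.self_of_nhds
  have hc1 := h1.smooth.continuousAt
  have hc2 := h2.smooth.continuousAt
  by_cases hy : g₁ y = 0
  · have hy2 : g₂ y = 0 := hz2.mpr (hz1.mp hy)
    obtain ⟨w, hw1, hw2⟩ := exists_dir (h1.reg hy) (h2.reg hy2)
    rcases lt_or_gt_of_ne hw2 with h3 | h3
    · right
      have h4 : 0 < fderiv ℝ (fun z => - g₂ z) y w := by
        rw [fderiv_fun_neg]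
        simp only [_root_.neg_apply]
        linarith
      filter_upwards [pos_of_pos h1 h2.neg hy hw1 h4, h1.zero, h2.zero] with z hz a b
      rw [← Real.sign_neg]
      rcases lt_trichotomy (g₁ z) 0 with h | h | h
      · rw [Real.sign_of_neg h, Real.sign_of_neg (hz.2 h)]
      · have : g₂ z = 0 := b.mpr (a.mp h)
        rw [h, this]; simp
      · rw [Real.sign_of_pos h, Real.sign_of_pos (hz.1 h)]
    · left
      filter_upwards [pos_of_pos h1 h2 hy hw1 h3, h1.zero, h2.zero] with z hz a b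
      rcases lt_trichotomy (g₁ z) 0 with h | h | h
      · rw [Real.sign_of_neg h, Real.sign_of_neg (hz.2 h)]
      · have : g₂ z = 0 := b.mpr (a.mp h)
        rw [h, this]
      · rw [Real.sign_of_pos h, Real.sign_of_pos (hz.1 h)]
  · have hy2 : g₂ y ≠ 0 := fun h => hy (hz1.mpr (hz2.mp h))
    rcases lt_or_gt_of_ne hy with a | a <;> rcases lt_or_gt_of_ne hy2 with b | b
    · left
      filter_upwards [hc1.eventually (gt_mem_nhds a), hc2.eventually (gt_mem_nhds b)] with z p q
      rw [Real.sign_of_neg p, Real.sign_of_neg q]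
    · right
      filter_upwards [hc1.eventually (gt_mem_nhds a), hc2.eventually (lt_mem_nhds b)] with z p q
      rw [Real.sign_of_neg p, Real.sign_of_pos q]
    · right
      filter_upwards [hc1.eventually (lt_mem_nhds a), hc2.eventually (gt_mem_nhds b)] with z p q
      rw [Real.sign_of_pos p, Real.sign_of_neg q]; norm_num
    · left
      filter_upwards [hc1.eventually (lt_mem_nhds a), hc2.eventually (lt_mem_nhds b)] with z p q
      rw [Real.sign_of_pos p, Real.sign_of_pos q]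

/-- c is a colouring on O -/
def IsCol (C O : Set E) (c : E → ℝ) : Prop :=
  ∀ y ∈ O, ∃ g, GoodAt C g y ∧ ∀ᶠ z in 𝓝 y, c z = Real.sign (g z)

lemma IsCol.mono {C O O' : Set E} {c : E → ℝ} (h : IsCol C O c) (hO : O' ⊆ O) : IsCol C O' c :=
  fun y hy => h y (hO hy)

lemma IsCol.neg {C O : Set E} {c : E → ℝ} (h : IsCol C O c) : IsCol C O (fun z => - c z) := by
  intro y hy
  obtain ⟨g, hg, hc⟩ := h y hy
  refine ⟨fun z => - g z, hg.neg, ?_⟩
  filter_upwards [hc] with z hz
  rw [Real.sign_neg, hz]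

/-- uniqueness of colourings -/
lemma IsCol.unique {C O : Set E} {c₁ c₂ : E → ℝ} (h1 : IsCol C O c₁) (h2 : IsCol C O c₂)
    (hO : IsPreconnected O) : (∀ y ∈ O, c₁ y = c₂ y) ∨ (∀ y ∈ O, c₁ y = - c₂ y) := by
  set U : Set E := {y | ∀ᶠ z in 𝓝 y, c₁ z = c₂ z} with hU
  set U' : Set E := {y | ∀ᶠ z in 𝓝 y, c₁ z = - c₂ z} with hU'
  have hUo : IsOpen U := isOpen_setOfPred_eventually_nhds
  have hU'o : IsOpen U' := isOpen_setOfPred_eventually_nhds
  have hcov : O ⊆ U ∪ U' := by
    intro y hy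
    obtain ⟨g₁, hg₁, hc₁⟩ := h1 y hy
    obtain ⟨g₂, hg₂, hc₂⟩ := h2 y hy
    rcases sign_cases hg₁ hg₂ with h | h
    · left
      change ∀ᶠ z in 𝓝 y, c₁ z = c₂ z
      filter_upwards [hc₁, hc₂, h] with z a b c
      rw [a, b, c]
    · right
      change ∀ᶠ z in 𝓝 y, c₁ z = - c₂ z
      filter_upwards [hc₁, hc₂, h] with z a b c
      rw [a, b, c]
  have hdisj : O ∩ (U ∩ U') = ∅ := by
    rw [eq_empty_iff_forall_notMem]
    rintro y ⟨hy, hyU, hyU'⟩
    obtain ⟨g₁, hg₁, hc₁⟩ := h1 y hy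
    obtain ⟨z, hz1, hz2, hz3, hz4⟩ := (hg₁.frequently.and_eventually
      (hc₁.and (hyU.and hyU'))).exists
    have h5 : c₁ z = 0 := by linarith
    rw [h5] at hz2
    exact hz1 (Real.sign_eq_zero_iff.mp hz2.symm)
  rcases (isPreconnected_iff_subset_of_disjoint.mp hO) U U' hUo hU'o hcov hdisj with h | h
  · left
    intro y hy
    exact (h hy).self_of_nhds
  · right
    intro y hy
    exact (h hy).self_of_nhds

/-- gluing of two colourings -/
lemma glue {C O₁ O₂ : Set E} {c₁ c₂ : E → ℝ} (hO₁ : IsOpen O₁) (hO₂ : IsOpen O₂)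
    (h1 : IsCol C O₁ c₁) (h2 : IsCol C O₂ c₂) (hc : IsPreconnected (O₁ ∩ O₂)) :
    ∃ c, IsCol C (O₁ ∪ O₂) c := by
  classical
  have key : ∀ c₂ : E → ℝ, IsCol C O₂ c₂ → (∀ y ∈ O₁ ∩ O₂, c₁ y = c₂ y) →
      ∃ c, IsCol C (O₁ ∪ O₂) c := by
    intro c₂ h2 heq
    refine ⟨fun z => if z ∈ O₁ then c₁ z else c₂ z, ?_⟩
    rintro y (hy | hy)
    · obtain ⟨g, hg, hcg⟩ := h1 y hy
      refine ⟨g, hg, ?_⟩
      filter_upwards [hcg, hO₁.mem_nhds hy] with z a b
      rw [if_pos b, a]
    · obtain ⟨g, hg, hcg⟩ := h2 y hy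
      refine ⟨g, hg, ?_⟩
      filter_upwards [hcg, hO₂.mem_nhds hy] with z a b
      by_cases hz : z ∈ O₁
      · rw [if_pos hz, heq z ⟨hz, b⟩, a]
      · rw [if_neg hz, a]
  rcases (h1.mono inter_subset_left).unique (h2.mono inter_subset_right) hc with h | h
  · exact key c₂ h2 h
  · exact key _ h2.neg h

/-- colourings along segments -/
lemma exists_segment {C : Set E} {p y : E}
    (hloc : ∀ z ∈ segment ℝ p y, ∃ g, GoodAt C g z) :
    ∃ δ > 0, ∃ c, IsCol C (thickening δ (segment ℝ p y)) c := by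
  -- local colourings on open sets
  set U : E → Set E := fun z => {q | ∃ O, IsOpen O ∧ q ∈ O ∧ ∃ c, IsCol C O c} with hU
  have hcomp : IsCompact (segment ℝ p y) := by
    rw [segment_eq_image_lineMap]
    exact isCompact_Icc.image AffineMap.lineMap_continuous
  have hO : ∀ z ∈ segment ℝ p y, ∃ O, IsOpen O ∧ z ∈ O ∧ ∃ c, IsCol C O c := by
    intro z hz
    obtain ⟨g, hg⟩ := hloc z hz
    obtain ⟨O, hOs, hOo, hzO⟩ := _root_.eventually_nhds_iff.mp hg.eventually
    exact ⟨O, hOo, hzO, fun z => Real.sign (g z), fun q hq => ⟨g, hOs q hq, by simp⟩⟩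
  choose! O hOo hzO c hcol using hO
  obtain ⟨δ, hδ, hleb⟩ := lebesgue_number_lemma_of_metric (c := fun z : segment ℝ p y => O z)
    hcomp (fun z => hOo z z.2) (fun z hz => mem_iUnion.mpr ⟨⟨z, hz⟩, hzO z hz⟩)
  have hball : ∀ z ∈ segment ℝ p y, ∃ c, IsCol C (ball z δ) c := by
    intro z hz
    obtain ⟨i, hi⟩ := hleb z hz
    exact ⟨c i, (hcol i i.2).mono hi⟩
  obtain ⟨n, hn⟩ := exists_nat_gt (‖y - p‖ / (δ / 2))
  have hn0 : 0 < (n : ℝ) := lt_of_le_of_lt (by positivity) hn
  set γ : ℝ → E := fun t => p + t • (y - p) with hγ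
  have hγmem : ∀ t, 0 ≤ t → t ≤ 1 → γ t ∈ segment ℝ p y := by
    intro t h0 h1
    rw [segment_eq_image']
    exact ⟨t, ⟨h0, h1⟩, rfl⟩
  refine ⟨δ / 2, by positivity, ?_⟩
  have hind : ∀ k : ℕ, k ≤ n →
      ∃ c, IsCol C (thickening (δ / 2) (segment ℝ p (γ (k / n)))) c := by
    intro k
    induction k with
    | zero =>
      intro _
      obtain ⟨c, hc⟩ := hball p (left_mem_segment ℝ p y)
      refine ⟨c, hc.mono ?_⟩
      have : segment ℝ p (γ ((0 : ℕ) / n)) = {p} := by
        simp [hγ, segment_same]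
      rw [this, thickening_singleton]
      exact ball_subset_ball (by linarith)
    | succ k ih =>
      intro hk
      obtain ⟨c₁, hc₁⟩ := ih (by omega)
      have hk0 : (0 : ℝ) ≤ k / n := by positivity
      have hkn : ((k + 1 : ℕ) : ℝ) / n ≤ 1 := by
        rw [div_le_one hn0]; exact_mod_cast hk
      have hkk : (k : ℝ) / n ≤ ((k + 1 : ℕ) : ℝ) / n := by
        gcongr; omega
      obtain ⟨c₂, hc₂⟩ := hball (γ (k / n)) (hγmem _ hk0 (hkk.trans hkn))
      have hconv : Convex ℝ (thickening (δ / 2) (segment ℝ p (γ (k / n))) ∩ ball (γ (k / n)) δ) :=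
        ((convex_segment _ _).thickening _).inter (convex_ball _ _)
      obtain ⟨c₃, hc₃⟩ := glue isOpen_thickening isOpen_ball hc₁ hc₂ hconv.isPreconnected
      refine ⟨c₃, hc₃.mono ?_⟩
      intro q hq
      rw [mem_thickening_iff] at hq
      obtain ⟨z, hz, hqz⟩ := hq
      rw [segment_eq_image'] at hz
      obtain ⟨t, ht, rfl⟩ := hz
      have e1 : p + t • (γ (((k + 1 : ℕ) : ℝ) / n) - p) = γ (t * (((k + 1 : ℕ) : ℝ) / n)) := by
        simp only [hγ, add_sub_cancel_left, smul_smul]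
      simp only [e1] at hqz
      set s := t * (((k + 1 : ℕ) : ℝ) / n) with hs
      have hs0 : 0 ≤ s := mul_nonneg ht.1 (by positivity)
      have hs1 : s ≤ ((k + 1 : ℕ) : ℝ) / n := by
        calc s ≤ 1 * (((k + 1 : ℕ) : ℝ) / n) := by
              rw [hs]; gcongr; exact ht.2
          _ = _ := one_mul _
      by_cases hsk : s ≤ k / n
      · left
        rw [mem_thickening_iff]
        refine ⟨γ s, ?_, hqz⟩
        rw [segment_eq_image']
        rcases eq_or_lt_of_le hk0 with h0 | h0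
        · refine ⟨0, ⟨le_rfl, zero_le_one⟩, ?_⟩
          have : s = 0 := le_antisymm (by rw [h0]; exact hsk) hs0
          simp [hγ, this]
        · refine ⟨s / (k / n), ⟨div_nonneg hs0 hk0, (div_le_one h0).mpr hsk⟩, ?_⟩
          simp only [hγ, add_sub_cancel_left, smul_smul]
          rw [div_mul_cancel₀ _ h0.ne']
      · right
        push Not at hsk
        rw [mem_ball]
        have h5 : dist (γ s) (γ (k / n)) ≤ δ / 2 := by
          rw [dist_eq_norm]
          have : γ s - γ (k / n) = (s - k / n) • (y - p) := by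
            simp only [hγ]
            rw [sub_smul]
            abel
          rw [this, norm_smul, Real.norm_eq_abs, abs_of_pos (by linarith)]
          have h6 : s - k / n ≤ 1 / n := by
            have : ((k + 1 : ℕ) : ℝ) / n = k / n + 1 / n := by push_cast; ring
            linarith
          have h7 : ‖y - p‖ ≤ n * (δ / 2) := by
            rw [div_lt_iff₀ (by positivity)] at hn
            exact hn.le
          calc (s - k / n) * ‖y - p‖ ≤ 1 / n * (n * (δ / 2)) := by
                apply mul_le_mul h6 h7 (norm_nonneg _) (by positivity)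
            _ = δ / 2 := by field_simp
        calc dist q (γ (k / n)) ≤ dist q (γ s) + dist (γ s) (γ (k / n)) := dist_triangle _ _ _
          _ < δ := by linarith
  obtain ⟨c', hc'⟩ := hind n le_rfl
  refine ⟨c', ?_⟩
  have : γ (n / n) = y := by
    rw [div_self hn0.ne']
    simp [hγ]
  rwa [this] at hc'

/-- a star shaped domain has a global colouring -/
theorem exists_global {C D : Set E} {p : E} (hD : IsOpen D) (hp : p ∉ C)
    (hstar : ∀ y ∈ D, segment ℝ p y ⊆ D) (hloc : ∀ z ∈ D, ∃ g, GoodAt C g z) :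
    ∃ c, IsCol C D c := by
  have hseg : ∀ y ∈ D, ∃ δ > 0, ∃ c, IsCol C (thickening δ (segment ℝ p y)) c ∧ c p = 1 := by
    intro y hy
    obtain ⟨δ, hδ, c, hc⟩ := exists_segment (C := C) (p := p) (y := y)
      (fun z hz => hloc z (hstar y hy hz))
    have hpm : p ∈ thickening δ (segment ℝ p y) :=
      self_subset_thickening hδ _ (left_mem_segment ℝ p y)
    obtain ⟨g, hg, hcg⟩ := hc p hpm
    have h1 : g p ≠ 0 := fun h => hp (hg.zero.self_of_nhds.mp h)
    have h2 := hcg.self_of_nhds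
    rcases lt_or_gt_of_ne h1 with h | h
    · refine ⟨δ, hδ, _, hc.neg, ?_⟩
      rw [h2, Real.sign_of_neg h]; norm_num
    · refine ⟨δ, hδ, c, hc, ?_⟩
      rw [h2, Real.sign_of_pos h]
  choose! δ hδ c hc hcp using hseg
  refine ⟨fun y => c y y, ?_⟩
  intro y hy
  have hyt : y ∈ thickening (δ y) (segment ℝ p y) :=
    self_subset_thickening (hδ y hy) _ (right_mem_segment ℝ p y)
  obtain ⟨g, hg, hcg⟩ := hc y hy y hyt
  refine ⟨g, hg, ?_⟩
  filter_upwards [hcg, hD.mem_nhds hy, isOpen_thickening.mem_nhds hyt] with y' h1 h2 h3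
  have hpt : ∀ z ∈ D, p ∈ thickening (δ z) (segment ℝ p z) := fun z hz =>
    self_subset_thickening (hδ z hz) _ (left_mem_segment ℝ p z)
  have hconv : Convex ℝ (thickening (δ y) (segment ℝ p y) ∩ thickening (δ y') (segment ℝ p y')) :=
    ((convex_segment _ _).thickening _).inter ((convex_segment _ _).thickening _)
  have hy't : y' ∈ thickening (δ y') (segment ℝ p y') :=
    self_subset_thickening (hδ y' h2) _ (right_mem_segment ℝ p y')
  rcases ((hc y hy).mono inter_subset_left).unique ((hc y' h2).mono inter_subset_right)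
    hconv.isPreconnected with h | h
  · rw [← h y' ⟨h3, hy't⟩, h1]
  · exfalso
    have := h p ⟨hpt y hy, hpt y' h2⟩
    rw [hcp y hy, hcp y' h2] at this
    norm_num at this

end Vale.Agent.P224.TwoSide
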