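import Vale.Agent.P224.TwoSide.Col
import Vale.Agent.P224.Pointwise
import Vale.Agent.P224.CSC

/-!
The cone over an embedded hypersurface of the sphere has local defining functions.
-/

namespace Vale.Agent.P224.TwoSide

open Set Filter Metric Module
open scoped Topology RealInnerProductSpace ContDiff Manifold

variable {V W M : Type*} [NormedAddCommGroup V] [InnerProductSpace ℝ V] [FiniteDimensional ℝ V]
  [NormedAddCommGroup W] [InnerProductSpace ℝ W] [FiniteDimensional ℝ W]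
  [TopologicalSpace M] [ChartedSpace V M] {F : M → W}

/-- the open cone over the image -/
def cone (F : M → W) : Set W := {y | ∃ r : ℝ, 0 < r ∧ ∃ x, y = r • F x}

omit [FiniteDimensional ℝ V] [InnerProductSpace ℝ V] [ChartedSpace V M] [NormedAddCommGroup V]
  [TopologicalSpace M] [FiniteDimensional ℝ W] in
lemma normalize_mem (hu : ∀ x, ‖F x‖ = 1) {z : W} (hz : z ∈ cone F) :
    ∃ x, ‖z‖⁻¹ • z = F x ∧ z = ‖z‖ • F x := by
  obtain ⟨r, hr, x, rfl⟩ := hz
  have : ‖r • F x‖ = r := by rw [norm_smul, hu, mul_one, Real.norm_of_nonneg hr.le]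
  refine ⟨x, ?_, ?_⟩
  · rw [this, smul_smul, inv_mul_cancel₀ hr.ne', one_smul]
  · rw [this]

omit [FiniteDimensional ℝ V] [InnerProductSpace ℝ V] [ChartedSpace V M] [NormedAddCommGroup V]
  [FiniteDimensional ℝ W] in
lemma continuousAt_normalize {y : W} (hy : y ≠ 0) : ContinuousAt (fun z : W => ‖z‖⁻¹ • z) y :=
  (continuousAt_id.norm.inv₀ (norm_ne_zero_iff.mpr hy)).smul continuousAt_id

omit [FiniteDimensional ℝ V] [InnerProductSpace ℝ V] [ChartedSpace V M] [NormedAddCommGroup V]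
  [FiniteDimensional ℝ W] in
lemma goodAt_off [CompactSpace M] (hc : Continuous F) (hu : ∀ x, ‖F x‖ = 1) {y : W} (hy : y ≠ 0)
    (hyc : y ∉ cone F) : GoodAt (cone F) (fun _ => 1) y where
  smooth := contDiffAt_const
  zero := by
    have hK : IsClosed (range F) := (isCompact_range hc).isClosed
    have h1 : ‖y‖⁻¹ • y ∉ range F := by
      rintro ⟨x, hx⟩
      apply hyc
      refine ⟨‖y‖, norm_pos_iff.mpr hy, x, ?_⟩
      rw [hx, smul_smul, mul_inv_cancel₀ (norm_ne_zero_iff.mpr hy), one_smul]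
    filter_upwards [(continuousAt_normalize hy).eventually (hK.isOpen_compl.mem_nhds h1)] with z hz
    constructor
    · intro h; norm_num at h
    · intro h
      obtain ⟨x, hx, -⟩ := normalize_mem hu h
      exact absurd ⟨x, hx.symm⟩ hz
  reg := by intro h; norm_num at h

lemma goodAt_on [IsManifold 𝓘(ℝ, V) ∞ M] [CompactSpace M]
    (hW : finrank ℝ W = finrank ℝ V + 2) (hF : SphImm V F) (hinj : Function.Injective F)
    {y : W} (hyc : y ∈ cone F) : ∃ g, GoodAt (cone F) g y := by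
  obtain ⟨r₀, hr₀, x₀, rfl⟩ := hyc
  have hI := immV_rep hF x₀
  set φ := chartAt V x₀ with hφ
  have hxs : x₀ ∈ φ.source := mem_chart_source _ x₀
  have hxT : φ x₀ ∈ φ.target := φ.map_source hxs
  set f : V → W := rep F x₀ with hf
  have hfx : f (φ x₀) = F x₀ := by
    rw [hf]; unfold rep; rw [φ.left_inv hxs]
  obtain ⟨hν, -, -⟩ := pointwise_nu hW hF x₀ hxT
  rw [φ.left_inv hxs] at hν
  set n₀ := nuW hW (rep F x₀) (φ x₀) with hn₀
  obtain ⟨hn1, hn2, hn3⟩ := hν
  have hfd : HasFDerivAt f (fderiv ℝ f (φ x₀)) (φ x₀) :=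
    ((hI.smooth.contDiffAt (hI.isOpen.mem_nhds hxT)).differentiableAt (by norm_num)).hasFDerivAt
  have hL1 : ∀ v, ⟪fderiv ℝ f (φ x₀) v, n₀⟫ = 0 := by
    intro v
    have hv : v = ∑ i, (stdOrthonormalBasis ℝ V).repr v i • stdOrthonormalBasis ℝ V i :=
      ((stdOrthonormalBasis ℝ V).sum_repr v).symm
    rw [hv, map_sum, sum_inner]
    refine Finset.sum_eq_zero fun i _ => ?_
    rw [map_smul, inner_smul_left]
    have : ⟪fderiv ℝ f (φ x₀) (stdOrthonormalBasis ℝ V i), n₀⟫ = 0 := hn3 i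
    rw [this, mul_zero]
  have hL2 : ∀ v, ⟪fderiv ℝ f (φ x₀) v, F x₀⟫ = 0 := by
    intro v
    have h1 : fderiv ℝ (fun v => ⟪f v, f v⟫) (φ x₀) = fderiv ℝ (fun _ => (1 : ℝ)) (φ x₀) := by
      apply Filter.EventuallyEq.fderiv_eq
      filter_upwards [hI.isOpen.mem_nhds hxT] with v hv
      rw [real_inner_self_eq_norm_sq, hI.unit v hv]; norm_num
    have h2 := congrArg (fun L => L v) h1
    simp only [fderiv_inner_apply ℝ hfd.differentiableAt hfd.differentiableAt,
      fderiv_fun_const] at h2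
    simp only [Pi.zero_apply, _root_.zero_apply] at h2
    rw [real_inner_comm (fderiv ℝ f (φ x₀) v) (f (φ x₀)), hfx] at h2
    linarith
  -- the parametrisation of a neighbourhood
  set Θ : V × ℝ × ℝ → W := fun q => q.2.1 • f q.1 + q.2.2 • n₀ with hΘ
  set L : V × ℝ × ℝ →L[ℝ] W :=
    (r₀ • (fderiv ℝ f (φ x₀)).comp (ContinuousLinearMap.fst ℝ V (ℝ × ℝ))
      + ((ContinuousLinearMap.fst ℝ ℝ ℝ).comp
          (ContinuousLinearMap.snd ℝ V (ℝ × ℝ))).smulRight (f (φ x₀)))
      + ((ContinuousLinearMap.snd ℝ ℝ ℝ).comp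
          (ContinuousLinearMap.snd ℝ V (ℝ × ℝ))).smulRight n₀ with hL
  have hder : HasFDerivAt Θ L (φ x₀, r₀, 0) := by
    have h1 : HasFDerivAt (fun q : V × ℝ × ℝ => q.2.1)
        ((ContinuousLinearMap.fst ℝ ℝ ℝ).comp (ContinuousLinearMap.snd ℝ V (ℝ × ℝ)))
        (φ x₀, r₀, 0) := ((ContinuousLinearMap.fst ℝ ℝ ℝ).comp
          (ContinuousLinearMap.snd ℝ V (ℝ × ℝ))).hasFDerivAt
    have h2 : HasFDerivAt (fun q : V × ℝ × ℝ => q.2.2)
        ((ContinuousLinearMap.snd ℝ ℝ ℝ).comp (ContinuousLinearMap.snd ℝ V (ℝ × ℝ)))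
        (φ x₀, r₀, 0) := ((ContinuousLinearMap.snd ℝ ℝ ℝ).comp
          (ContinuousLinearMap.snd ℝ V (ℝ × ℝ))).hasFDerivAt
    have h3 : HasFDerivAt (fun q : V × ℝ × ℝ => f q.1)
        ((fderiv ℝ f (φ x₀)).comp (ContinuousLinearMap.fst ℝ V (ℝ × ℝ))) (φ x₀, r₀, 0) :=
      HasFDerivAt.comp (φ x₀, r₀, (0 : ℝ)) (g := f) (f := fun q : V × ℝ × ℝ => q.1) hfd
        (ContinuousLinearMap.hasFDerivAt (ContinuousLinearMap.fst ℝ V (ℝ × ℝ)))
    exact (h1.fun_smul h3).add (h2.smul_const n₀)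
  have hLinj : Function.Injective L := by
    rw [injective_iff_map_eq_zero]
    rintro ⟨v, α, β⟩ h
    have h0 : r₀ • fderiv ℝ f (φ x₀) v + α • F x₀ + β • n₀ = 0 := by
      rw [← hfx]; exact h
    have hFF : ⟪F x₀, F x₀⟫ = 1 := by rw [real_inner_self_eq_norm_sq, hF.unit]; norm_num
    have hnn : ⟪n₀, n₀⟫ = 1 := by rw [real_inner_self_eq_norm_sq, hn1]; norm_num
    have hnF : ⟪n₀, F x₀⟫ = 0 := by rw [real_inner_comm]; exact hn2
    have e1 := congrArg (fun w => ⟪w, F x₀⟫) h0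
    have e2 := congrArg (fun w => ⟪w, n₀⟫) h0
    simp only [inner_add_left, real_inner_smul_left, hL1, hL2, hFF, hnn, hnF, hn2,
      inner_zero_left, mul_zero, mul_one, zero_add, add_zero] at e1 e2
    rw [e1, e2] at h0
    simp only [zero_smul, add_zero] at h0
    have h1 := (smul_eq_zero.mp h0).resolve_left hr₀.ne'
    have hv : v = 0 := hI.inj _ hxT (by rw [map_zero]; exact h1)
    rw [hv, e1, e2]
    rfl
  have hdim : finrank ℝ (V × ℝ × ℝ) = finrank ℝ W := by
    simp only [finrank_prod, finrank_self]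
    omega
  set L' : (V × ℝ × ℝ) ≃L[ℝ] W :=
    (LinearMap.linearEquivOfInjective L.toLinearMap hLinj hdim).toContinuousLinearEquiv with hL'
  have hL'L : (L' : V × ℝ × ℝ →L[ℝ] W) = L := by
    apply ContinuousLinearMap.ext
    intro q
    rfl
  have hder' : HasFDerivAt Θ (L' : V × ℝ × ℝ →L[ℝ] W) (φ x₀, r₀, 0) := by rw [hL'L]; exact hder
  have hΘs : ContDiffAt ℝ 1 Θ (φ x₀, r₀, 0) := by
    have h1 : ContDiffAt ℝ 1 f (φ x₀) :=
      (hI.smooth.contDiffAt (hI.isOpen.mem_nhds hxT)).of_le (by exact_mod_cast le_top)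
    have h3 : ContDiffAt ℝ 1 (fun q : V × ℝ × ℝ => f q.1) (φ x₀, r₀, 0) :=
      ContDiffAt.comp (φ x₀, r₀, (0 : ℝ)) (g := f) (f := fun q : V × ℝ × ℝ => q.1) h1
        contDiffAt_fst
    exact ((contDiffAt_snd.fst).smul h3).add ((contDiffAt_snd.snd).smul contDiffAt_const)
  set e := hΘs.toOpenPartialHomeomorph Θ hder' (by norm_num) with he
  have hes : (φ x₀, r₀, (0 : ℝ)) ∈ e.source := hΘs.mem_toOpenPartialHomeomorph_source hder' (by norm_num)
  have hecoe : (e : V × ℝ × ℝ → W) = Θ := hΘs.toOpenPartialHomeomorph_coe hder' (by norm_num)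
  have hinv : ContDiffAt ℝ 1 e.symm (Θ (φ x₀, r₀, 0)) := by
    have := hΘs.to_localInverse hder' (by norm_num)
    exact this
  have hΘ0 : Θ (φ x₀, r₀, 0) = r₀ • F x₀ := by
    simp only [hΘ, zero_smul, add_zero, hfx]
  refine ⟨fun z => (e.symm z).2.2, ?_, ?_, ?_⟩
  · rw [← hΘ0]
    exact hinv.snd.snd
  · have hey : e (φ x₀, r₀, 0) = r₀ • F x₀ := by rw [hecoe, hΘ0]
    have hyt : r₀ • F x₀ ∈ e.target := by rw [← hey]; exact e.map_source hes
    have hsy : e.symm (r₀ • F x₀) = (φ x₀, r₀, 0) := by rw [← hey, e.left_inv hes]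
    have hsc : ContinuousAt e.symm (r₀ • F x₀) := e.continuousAt_symm hyt
    have a1 : ∀ᶠ z in 𝓝 (r₀ • F x₀), z ∈ e.target := e.open_target.mem_nhds hyt
    have a2 : ∀ᶠ z in 𝓝 (r₀ • F x₀), (e.symm z).1 ∈ φ.target := by
      have : ContinuousAt (fun z => (e.symm z).1) (r₀ • F x₀) := hsc.fst
      apply this.eventually_mem
      rw [hsy]
      exact φ.open_target.mem_nhds hxT
    have a3 : ∀ᶠ z in 𝓝 (r₀ • F x₀), 0 < (e.symm z).2.1 := by
      have : ContinuousAt (fun z => (e.symm z).2.1) (r₀ • F x₀) := hsc.snd.fst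
      apply this.eventually (lt_mem_nhds _)
      change 0 < (e.symm (r₀ • F x₀)).2.1
      rw [hsy]
      exact hr₀
    -- a neighbourhood in M × ℝ
    have b1 : ∀ᶠ q : M × ℝ in 𝓝 (x₀, r₀), q.1 ∈ φ.source ∧ (φ q.1, q.2, (0 : ℝ)) ∈ e.source := by
      have c1 : ∀ᶠ q : M × ℝ in 𝓝 (x₀, r₀), q.1 ∈ φ.source :=
        continuousAt_fst.eventually_mem (φ.open_source.mem_nhds hxs)
      have c2 : ContinuousAt (fun q : M × ℝ => (φ q.1, q.2, (0 : ℝ))) (x₀, r₀) := by
        have : ContinuousAt (fun q : M × ℝ => φ q.1) (x₀, r₀) :=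
          ContinuousAt.comp (f := fun q : M × ℝ => q.1) (φ.continuousAt hxs) continuousAt_fst
        exact this.prodMk (continuousAt_snd.prodMk continuousAt_const)
      exact c1.and (c2.eventually_mem (e.open_source.mem_nhds hes))
    rw [nhds_prod_eq] at b1
    obtain ⟨U, hU, R, hR, hUR⟩ := eventually_prod_iff.mp b1
    have hemb : Topology.IsClosedEmbedding F := hF.smooth.continuous.isClosedEmbedding hinj
    have hU' : U ∈ comap F (𝓝 (F x₀)) := by
      rw [← hemb.isInducing.nhds_eq_comap]; exact hU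
    obtain ⟨A, hA, hAU⟩ := hU'
    have hy0 : r₀ • F x₀ ≠ 0 := by
      intro h
      have := congrArg norm h
      rw [norm_smul, hF.unit, mul_one, norm_zero, norm_eq_zero] at this
      exact hr₀.ne' this
    have hny : ‖r₀ • F x₀‖ = r₀ := by rw [norm_smul, hF.unit, mul_one, Real.norm_of_nonneg hr₀.le]
    have a4 : ∀ᶠ z in 𝓝 (r₀ • F x₀), ‖z‖⁻¹ • z ∈ A := by
      apply (continuousAt_normalize hy0).eventually_mem
      rw [hny, smul_smul, inv_mul_cancel₀ hr₀.ne', one_smul]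
      exact hA
    have a5 : ∀ᶠ z in 𝓝 (r₀ • F x₀), R ‖z‖ := by
      have : ContinuousAt (fun z : W => ‖z‖) (r₀ • F x₀) := continuousAt_id.norm
      apply this.eventually
      change ∀ᶠ y in 𝓝 ‖r₀ • F x₀‖, R y
      rw [hny]
      exact hR
    filter_upwards [a1, a2, a3, a4, a5] with z h1 h2 h3 h4 h5
    constructor
    · intro h0
      have h6 : e (e.symm z) = z := e.right_inv h1
      rw [hecoe] at h6
      simp only [hΘ] at h6
      rw [h0, zero_smul, add_zero] at h6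
      exact ⟨_, h3, φ.symm (e.symm z).1, h6.symm⟩
    · intro hz
      obtain ⟨x, hx1, hx2⟩ := normalize_mem hF.unit hz
      have hxU : U x := hAU (by
        change F x ∈ A
        rw [← hx1]; exact h4)
      obtain ⟨h6, h7⟩ := hUR hxU h5
      have h8 : e (φ x, ‖z‖, 0) = z := by
        rw [hecoe]
        simp only [hΘ, zero_smul, add_zero]
        conv_rhs => rw [hx2]
        congr 1
        rw [hf]; unfold rep; rw [φ.left_inv h6]
      rw [← h8, e.left_inv h7]
  · intro _ h0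
    have hgd : HasFDerivAt (fun z => (e.symm z).2.2) (0 : W →L[ℝ] ℝ) (r₀ • F x₀ + (0 : ℝ) • n₀) := by
      rw [zero_smul, add_zero, ← h0]
      have : ContDiffAt ℝ 1 (fun z => (e.symm z).2.2) (r₀ • F x₀) := by
        rw [← hΘ0]
        exact hinv.snd.snd
      exact (this.differentiableAt (by norm_num)).hasFDerivAt
    have hcur : HasDerivAt (fun s : ℝ => r₀ • F x₀ + s • n₀) n₀ 0 := by
      simpa using ((hasDerivAt_id (0 : ℝ)).smul_const n₀).const_add (r₀ • F x₀)
    have h1 := hgd.comp_hasDerivAt (0 : ℝ) hcur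
    have h2 : ((fun z => (e.symm z).2.2) ∘ fun s : ℝ => r₀ • F x₀ + s • n₀) =ᶠ[𝓝 0] fun s => s := by
      have hc : ContinuousAt (fun s : ℝ => (φ x₀, r₀, s)) 0 := by fun_prop
      filter_upwards [hc.eventually_mem (e.open_source.mem_nhds hes)] with s hs
      have h3 : e (φ x₀, r₀, s) = r₀ • F x₀ + s • n₀ := by
        rw [hecoe]
        simp only [hΘ, hfx]
      simp only [Function.comp_apply]
      rw [← h3, e.left_inv hs]
    have h4 := h1.congr_of_eventuallyEq h2.symm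
    have h5 := h4.unique (hasDerivAt_id' (0 : ℝ))
    simp at h5

end Vale.Agent.P224.TwoSide
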